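import Vale.Agent.P002A30.Defs

/-!
# P002A30: the rows
-/

open Matrix Metric Topology
open scoped Manifold
open Vale.Agent.P299G40 (PN IsSmoothVariety)

namespace Vale.Agent.P002A

/-- A smooth projective curve is a compact connected Riemann surface with small discs. -/
def GEO : Prop := ∀ (N : ℕ) (Z : Set (PN N)), IsSmoothVariety 1 Z →
  T2Space (An Z) ∧ CompactSpace (An Z) ∧ ConnectedSpace (An Z) ∧
  ∃ (_ : ChartedSpace ℂ (An Z)) (_ : IsManifold 𝓘(ℂ) 1 (An Z)), ∀ p : An Z, ∀ O ∈ 𝓝 p,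
    ∃ φ : ℂ → An Z, IsDisc φ ∧ φ 0 = p ∧ Set.MapsTo φ (closedBall 0 1) O

/-- Semisimplification. -/
def SS : Prop := ∀ (G : Type) [Group G] (r : ℕ) (ρ : G →* SpecialLinearGroup (Fin r) ℂ),
  ∃ ρ' : G →* SpecialLinearGroup (Fin r) ℂ,
    (∀ W : Submodule ℂ (Fin r → ℂ), (∀ g, ∀ v ∈ W, (ρ' g).1 *ᵥ v ∈ W) →
      ∃ W' : Submodule ℂ (Fin r → ℂ), (∀ g, ∀ v ∈ W', (ρ' g).1 *ᵥ v ∈ W') ∧ IsCompl W W') ∧
    ∀ φ : (G → Matrix (Fin r) (Fin r) ℂ) → ℂ, Continuous φ →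
      (∀ (σ : G →* SpecialLinearGroup (Fin r) ℂ) (P : SpecialLinearGroup (Fin r) ℂ),
        φ (fun g => (P * σ g * P⁻¹).1) = φ (fun g => (σ g).1)) →
      φ (fun g => (ρ' g).1) = φ (fun g => (ρ g).1)

end Vale.Agent.P002A
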