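import Vale.Agent.P002A30.Top
import Vale.Agent.P002A30.Rows
import Vale.Agent.P002.H306.Rep
import Vale.Agent.P002.H326J.DefsV

/-!
# P002A30: the points of `Rep_r` and of `M_r`
-/

open Set Matrix Topology TensorProduct NumberField
open Vale.Agent.P002R.Orb Vale.Agent.P002.H326J

noncomputable section

namespace Vale.Agent.P002A

variable {ι : Type} {r : ℕ} {R : Set (FreeGroup ι)}

/-- the class of a polynomial -/
def cls (r : ℕ) (R : Set (FreeGroup ι)) : MvPolynomial (ι × Fin r × Fin r) ℤ →+* ORep r R :=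
  (Ideal.Quotient.mk (repIdeal r R)).comp (Ideal.Quotient.mk (slIdeal ι r))

theorem cls_surj : Function.Surjective (cls r R) :=
  Ideal.Quotient.mk_surjective.comp Ideal.Quotient.mk_surjective

instance [Finite ι] : Algebra.FiniteType ℤ (ORep r R) :=
  Algebra.FiniteType.of_surjective
    (⟨cls r R, fun n => DFunLike.congr_fun (RingHom.ext_int ((cls r R).comp (algebraMap ℤ _))
      (algebraMap ℤ _)) n⟩ : MvPolynomial (ι × Fin r × Fin r) ℤ →ₐ[ℤ] ORep r R) cls_surj

section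
variable {A : Type} [CommRing A]

theorem gens_apply (x : ORep r R →+* A) (p : ι) (i j : Fin r) :
    (gens x p).1 i j = x (cls r R (MvPolynomial.X (p, i, j))) := rfl

theorem lift_map {A' : Type} [CommRing A'] (φ : A →+* A') (X : ι → SpecialLinearGroup (Fin r) A)
    (w : FreeGroup ι) : FreeGroup.lift (fun p => SpecialLinearGroup.map φ (X p)) w =
      SpecialLinearGroup.map φ (FreeGroup.lift X w) :=
  DFunLike.congr_fun (FreeGroup.ext_hom _ ((SpecialLinearGroup.map φ).comp (FreeGroup.lift X))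
    fun p => by simp) w

theorem map_sub_one {A' : Type} [CommRing A'] (φ : A →+* A') (g : SpecialLinearGroup (Fin r) A)
    (i j : Fin r) : φ ((g.1 - 1) i j) = ((SpecialLinearGroup.map φ g).1 - 1) i j := by
  by_cases h : i = j <;> simp [h]

theorem gens_rel (x : ORep r R →+* A) : IsRep R (gens x) := fun w hw => by
  refine (lift_map _ _ w).trans (Subtype.ext (sub_eq_zero.1 (Matrix.ext fun i j => ?_)))
  refine (map_sub_one _ _ i j).symm.trans ?_
  have : Ideal.Quotient.mk (repIdeal r R) (((FreeGroup.lift (taut ι r) w).1 - 1) i j) = 0 :=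
    Ideal.Quotient.eq_zero_iff_mem.2 (Ideal.subset_span ⟨w, hw, i, j, rfl⟩)
  exact (congrArg x this).trans (map_zero x)

theorem exists_point {X : ι → SpecialLinearGroup (Fin r) A} (hX : IsRep R X) :
    ∃ x : ORep r R →+* A, gens x = X := by
  let φ₀ : MvPolynomial (ι × Fin r × Fin r) ℤ →+* A :=
    MvPolynomial.eval₂Hom (Int.castRingHom A) fun p => (X p.1).1 p.2.1 p.2.2
  have h₀ : slIdeal ι r ≤ RingHom.ker φ₀ := Ideal.span_le.2 <| by
    rintro _ ⟨p, rfl⟩
    have : φ₀.mapMatrix (Matrix.of fun i j => MvPolynomial.X (p, i, j)) = (X p).1 :=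
      Matrix.ext fun i j => by simp [φ₀]
    rw [SetLike.mem_coe, RingHom.mem_ker, map_sub, φ₀.map_det, this, (X p).2, map_one, sub_self]
  let φ₁ : OSL ι r →+* A := Ideal.Quotient.lift _ φ₀ h₀
  have h₁ : (fun p => SpecialLinearGroup.map φ₁ (taut ι r p)) = X := funext fun p =>
    Subtype.ext (Matrix.ext fun i j => MvPolynomial.eval₂Hom_X' _ _ (p, i, j))
  have h₂ : repIdeal r R ≤ RingHom.ker φ₁ := Ideal.span_le.2 <| by
    rintro _ ⟨w, hw, i, j, rfl⟩
    rw [SetLike.mem_coe, RingHom.mem_ker, map_sub_one, ← lift_map, h₁, hX w hw]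
    simp
  exact ⟨Ideal.Quotient.lift _ φ₁ h₂, h₁⟩

theorem point_ext {x y : ORep r R →+* A} (h : gens x = gens y) : x = y := by
  have : x.comp (cls r R) = y.comp (cls r R) :=
    MvPolynomial.ringHom_ext' (RingHom.ext_int _ _) fun ⟨p, i, j⟩ =>
      (gens_apply x p i j).symm.trans ((by rw [h]) : _ = (gens y p).1 i j)
  refine RingHom.ext fun f => ?_
  obtain ⟨F, rfl⟩ := cls_surj f
  exact DFunLike.congr_fun this F

theorem apply_cls (x : ORep r R →+* A) (F : MvPolynomial (ι × Fin r × Fin r) ℤ) :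
    x (cls r R F) = value F (gens x) :=
  DFunLike.congr_fun (MvPolynomial.ringHom_ext' (f := x.comp (cls r R))
    (g := MvPolynomial.eval₂Hom (algebraMap ℤ A) fun p => (gens x p.1).1 p.2.1 p.2.2)
    (RingHom.ext_int _ _) fun ⟨p, i, j⟩ => by
      rw [MvPolynomial.eval₂Hom_X']
      rfl) F

variable {G : Type} [Group G] (θ : PresentedGroup R ≃* G)

theorem IsPointOf.lift {ρ : G →* SpecialLinearGroup (Fin r) A} {x : ORep r R →+* A}
    (h : IsPointOf θ ρ x) (w : FreeGroup ι) :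
    FreeGroup.lift (gens x) w = ρ (θ (PresentedGroup.mk R w)) :=
  DFunLike.congr_fun (FreeGroup.ext_hom _ (ρ.comp (θ.toMonoidHom.comp (PresentedGroup.mk R)))
    fun p => (FreeGroup.lift_apply_of).trans (h p)) w

theorem exists_of_hom (ρ : G →* SpecialLinearGroup (Fin r) A) :
    ∃ x : ORep r R →+* A, IsPointOf θ ρ x := by
  have : IsRep R fun p => ρ (θ (PresentedGroup.of p)) := fun w hw => by
    have h := DFunLike.congr_fun (FreeGroup.ext_hom
      (FreeGroup.lift fun p => ρ (θ (PresentedGroup.of p)))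
      (ρ.comp (θ.toMonoidHom.comp (PresentedGroup.mk R))) fun p => FreeGroup.lift_apply_of) w
    rw [h, MonoidHom.comp_apply, MonoidHom.comp_apply, PresentedGroup.one_of_mem hw, map_one,
      map_one]
  obtain ⟨x, hx⟩ := exists_point this
  exact ⟨x, congrFun hx⟩

theorem exists_hom (x : ORep r R →+* A) : ∃ ρ, IsPointOf θ ρ x :=
  ⟨(PresentedGroup.toGroup (gens_rel x)).comp θ.symm.toMonoidHom, fun p => by
    simpa using (PresentedGroup.toGroup.of (gens_rel x)).symm⟩

theorem represents :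
    (∀ ρ : G →* SpecialLinearGroup (Fin r) A, ∃! x : ORep r R →+* A, IsPointOf θ ρ x) ∧
      ∀ x : ORep r R →+* A, ∃! ρ, IsPointOf θ ρ x := by
  refine ⟨fun ρ => existsUnique_of_exists_of_unique (exists_of_hom θ ρ) fun x y hx hy =>
    point_ext (funext fun p => (hx p).trans (hy p).symm),
    fun x => existsUnique_of_exists_of_unique (exists_hom θ x) fun ρ σ h₁ h₂ =>
      MonoidHom.ext fun g => ?_⟩
  obtain ⟨a, rfl⟩ := θ.surjective g
  obtain ⟨w, rfl⟩ := PresentedGroup.mk_surjective R a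
  exact (h₁.lift θ w).symm.trans (h₂.lift θ w)

end

theorem mem_closure_rep {x : ORep r R →+* ℂ} {S : Set (CPt (ORep r R))}
    (h : ∀ F : MvPolynomial (ι × Fin r × Fin r) ℂ,
      (∀ y ∈ S, value F (gens y) = 0) → value F (gens x) = 0) :
    (x : CPt (ORep r R)) ∈ closure S := by
  refine mem_closure_ind (fun u => ∃ F : MvPolynomial (ι × Fin r × Fin r) ℂ,
    ∀ y, u y = value F (gens y)) ⟨0, fun x => by simp [value]⟩ (fun a b => ?_) ?_ ?_
  · obtain ⟨F, rfl⟩ := cls_surj b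
    refine ⟨MvPolynomial.C a * MvPolynomial.map (Int.castRingHom ℂ) F, fun x => ?_⟩
    beta_reduce
    rw [apply_cls, value, value, MvPolynomial.eval₂_mul, MvPolynomial.eval₂_C,
      MvPolynomial.eval₂_map]
    congr 2
  · rintro u v ⟨F, hF⟩ ⟨F', hF'⟩
    exact ⟨F + F', fun x => by
      beta_reduce
      rw [hF, hF', value, value, value, MvPolynomial.eval₂_add]⟩
  · rintro u ⟨F, hF⟩ hu
    exact (hF x).trans (h F fun y hy => (hF y).symm.trans (hu y hy))

theorem mem_intPts {L : IntermediateField ℚ ℂ} {x : ORep r R →+* ℂ}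
    (h : IsIntegralRep L (gens x)) : x ∈ intPts (ORep r R) L := by
  choose a ha using h
  have hinj : Function.Injective (algebraMap (𝓞 L) ℂ) := fun u v h =>
    Subtype.ext (Subtype.ext h)
  have hm : ∀ p, (algebraMap (𝓞 L) ℂ).mapMatrix (Matrix.of (a p)) = (gens x p).1 := fun p =>
    Matrix.ext fun i j => (ha p i j).symm
  let X : ι → SpecialLinearGroup (Fin r) (𝓞 L) := fun p => ⟨Matrix.of (a p), hinj (by
    rw [RingHom.map_det, hm, (gens x p).2, map_one])⟩
  have hX : (fun p => SpecialLinearGroup.map (algebraMap (𝓞 L) ℂ) (X p)) = gens x :=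
    funext fun p => Subtype.ext (hm p)
  have hR : IsRep R X := fun w hw => Subtype.ext (sub_eq_zero.1 (Matrix.ext fun i j => hinj (by
    refine (map_sub_one _ _ i j).trans ?_
    rw [← lift_map, hX, gens_rel x w hw]
    simp)))
  obtain ⟨y, hy⟩ := exists_point hR
  refine ⟨y, point_ext (Eq.trans (funext fun p => ?_) hX)⟩
  rw [← hy]
  rfl

variable {G : Type} [Group G] (θ : PresentedGroup R ≃* G)

theorem ss_iff (ρ : G →* SpecialLinearGroup (Fin r) ℂ) : (toRep ρ).IsSemisimpleRepresentation ↔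
    ∀ W : Submodule ℂ (Fin r → ℂ), (∀ g, ∀ v ∈ W, (ρ g).1 *ᵥ v ∈ W) →
      ∃ W' : Submodule ℂ (Fin r → ℂ), (∀ g, ∀ v ∈ W', (ρ g).1 *ᵥ v ∈ W') ∧ IsCompl W W' := by
  have hc : ∀ U V : Subrepresentation (toRep ρ),
      IsCompl U V ↔ IsCompl U.toSubmodule V.toSubmodule := fun U V => by
    rw [isCompl_iff, isCompl_iff, disjoint_iff, disjoint_iff, codisjoint_iff, codisjoint_iff,
      ← Subrepresentation.toSubmodule_injective.eq_iff,
      ← Subrepresentation.toSubmodule_injective.eq_iff]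
    rfl
  constructor
  · intro h W hW
    obtain ⟨V, hV⟩ := h.exists_isCompl ⟨W, fun g v hv => hW g v hv⟩
    exact ⟨V.toSubmodule, fun g v hv => V.apply_mem_toSubmodule g hv, (hc _ _).1 hV⟩
  · refine fun h => ⟨fun U => ?_⟩
    obtain ⟨W, hW, h'⟩ := h U.toSubmodule fun g v hv => U.apply_mem_toSubmodule g hv
    exact ⟨⟨W, fun g v hv => hW g v hv⟩, (hc _ _).2 h'⟩

theorem IsPointOf.inv_iff {ρ : G →* SpecialLinearGroup (Fin r) ℂ} {x : ORep r R →+* ℂ}
    (h : IsPointOf θ ρ x) (W : Submodule ℂ (Fin r → ℂ)) :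
    IsInv (gens x) W ↔ ∀ g, ∀ v ∈ W, (ρ g).1 *ᵥ v ∈ W := by
  refine ⟨fun hW g v hv => ?_, fun hW p v hv => by rw [h p]; exact hW _ v hv⟩
  obtain ⟨a, rfl⟩ := θ.surjective g
  obtain ⟨w, rfl⟩ := PresentedGroup.mk_surjective R a
  rw [← h.lift θ w]
  exact (P002.H306.isInv_iff _ W).1 hW w v hv

theorem mem_repLocus {s : ℕ} (w : Fin s → FreeGroup ι) (C : Fin s → SpecialLinearGroup (Fin r) ℂ)
    (x : ORep r R →+* ℂ) :
    x ∈ repLocus θ (fun j => θ (PresentedGroup.mk R (w j))) C ↔ gens x ∈ YW R w C := by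
  constructor
  · rintro ⟨ρ, h, h1, h2⟩
    refine ⟨⟨gens_rel x, fun W hW => ?_⟩, fun j => by rw [h.lift θ]; exact h2 j⟩
    obtain ⟨W', h3, h4⟩ := (ss_iff ρ).1 h1 W ((h.inv_iff θ W).1 hW)
    exact ⟨W', (h.inv_iff θ W').2 h3, h4⟩
  · rintro ⟨⟨-, h1⟩, h2⟩
    obtain ⟨ρ, h⟩ := exists_hom θ x
    refine ⟨ρ, h, (ss_iff ρ).2 fun W hW => ?_, fun j => by rw [← h.lift θ]; exact h2 j⟩
    obtain ⟨W', h3, h4⟩ := h1 W ((h.inv_iff θ W).2 hW)
    exact ⟨W', (h.inv_iff θ W').1 h3, h4⟩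

theorem rep_dense {s : ℕ} (w : Fin s → FreeGroup ι) (C : Fin s → SpecialLinearGroup (Fin r) ℂ)
    {L : IntermediateField ℚ ℂ} (h : IsDenseRep L (YW R w C)) :
    repLocus θ (fun j => θ (PresentedGroup.mk R (w j))) C ⊆
      closure (intPts _ L ∩ repLocus θ (fun j => θ (PresentedGroup.mk R (w j))) C) := by
  intro x hx
  refine mem_closure_rep fun F hF => h F (fun X hX hI => ?_) _ ((mem_repLocus θ w C x).1 hx)
  obtain ⟨y, rfl⟩ := exists_point hX.1.1
  exact hF y ⟨mem_intPts hI, (mem_repLocus θ w C y).2 hX⟩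

theorem conj_eq {A : Type} [CommRing A] {x y : ORep r R →+* A} (g : SpecialLinearGroup (Fin r) A)
    (h : ∀ p, gens y p = g * gens x p * g⁻¹) (f : OM r R) : x f = y f := by
  have := f.2
  simp only [OM, Subring.mem_iInf] at this
  exact this A _ x y ⟨g, h⟩

theorem exists_ss (ss : SS) (x : ORep r R →+* ℂ) :
    ∃ y ∈ repLocus θ (s := 0) Fin.elim0 Fin.elim0,
      res (OM r R).subtype y = res (OM r R).subtype x := by
  obtain ⟨ρ, h⟩ := exists_hom θ x
  obtain ⟨ρ', h1, h2⟩ := ss G r ρ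
  obtain ⟨y, hy⟩ := exists_of_hom θ ρ'
  refine ⟨y, ⟨ρ', hy, (ss_iff ρ').2 h1, fun j => j.elim0⟩, RingHom.ext fun f => ?_⟩
  obtain ⟨F, hF⟩ := cls_surj f.1
  let φ : (G → Matrix (Fin r) (Fin r) ℂ) → ℂ := fun m => MvPolynomial.eval
    (fun p : ι × Fin r × Fin r => m (θ (PresentedGroup.of p.1)) p.2.1 p.2.2)
    (MvPolynomial.map (algebraMap ℤ ℂ) F)
  have hφ : ∀ σ z, IsPointOf θ σ z → φ (fun g => (σ g).1) = z f := fun σ z hz => by
    have : gens z = fun p => σ (θ (PresentedGroup.of p)) := funext hz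
    rw [← hF, apply_cls, this, value]
    exact MvPolynomial.eval_map _ _ _
  have hc : Continuous φ := (MvPolynomial.continuous_eval _).comp (by fun_prop)
  refine (hφ _ _ hy).symm.trans ((h2 φ hc fun σ P => ?_).trans (hφ _ _ h))
  obtain ⟨z, hz⟩ := exists_of_hom θ σ
  obtain ⟨z', hz'⟩ := exists_of_hom θ ((MulAut.conj P).toMonoidHom.comp σ)
  exact (hφ _ _ hz').trans ((conj_eq P (fun p => by rw [hz' p, hz p]; rfl) f).symm.trans
    (hφ _ _ hz).symm)

theorem univ_subset [Finite ι] (ss : SS) : (univ : Set (CPt (OM r R))) ⊆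
    closure (res (OM r R).subtype '' repLocus θ (s := 0) Fin.elim0 Fin.elim0) := by
  rw [← (denseRange_res (OM r R).subtype_injective).closure_range]
  refine closure_mono ?_
  rintro _ ⟨x, rfl⟩
  exact exists_ss θ ss x

end Vale.Agent.P002A

end
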