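import Vale.Agent.P299G40.Defs
import Mathlib

/-!
# P002: algebraic curves, meridians, the scheme of invariants and its integral points
-/

open Matrix Metric Topology NumberField TensorProduct
open scoped Real
open Vale.Agent.P299G40 (PN)

noncomputable section

namespace Vale.Agent.P002A

section curves

variable {N : ℕ}

/-- The complex points of `Z ⊆ P^N`. -/
def An (Z : Set (PN N)) : Type := Z

/-- The classical topology: the subspace topology of the quotient topology of `P^N(ℂ)`. -/
instance (Z : Set (PN N)) : TopologicalSpace (An Z) :=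
  (TopologicalSpace.coinduced (fun v : {v : Fin (N + 1) → ℂ // v ≠ 0} =>
    Projectivization.mk ℂ v.1 v.2) inferInstance).induced Subtype.val

variable {Z : Set (PN N)}

/-- `φ` embeds the closed unit disc holomorphically into `Z`: it is injective on it, and near each
of its points `φ = [s]` with `s` holomorphic and `s`, `s'` linearly independent. -/
def IsDisc (φ : ℂ → An Z) : Prop :=
  Set.InjOn φ (closedBall 0 1) ∧ ∀ u ∈ closedBall (0 : ℂ) 1, ∃ s : ℂ → Fin (N + 1) → ℂ,
    AnalyticAt ℂ s u ∧ LinearIndependent ℂ ![s u, deriv s u] ∧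
      ∀ᶠ v in 𝓝 u, ∃ h, (φ v).1 = Projectivization.mk ℂ (s v) h

/-- `γ` is a meridian around `p`: go to the boundary circle of a holomorphic disc with centre `p`
which meets `D` only in `p`, once around it, and back. -/
def IsMeridian (D : Set (An Z)) (x₀ : ↥Dᶜ) (p : An Z) (γ : FundamentalGroup ↥Dᶜ x₀) : Prop :=
  ∃ (φ : ℂ → An Z) (y : ↥Dᶜ) (σ : Path x₀ y) (c : Path y y), IsDisc φ ∧ φ 0 = p ∧
    (∀ u ∈ closedBall (0 : ℂ) 1, φ u ∈ D → u = 0) ∧
    (∀ t, (c t : An Z) = φ (circleMap 0 1 (2 * π * t))) ∧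
    γ = FundamentalGroup.fromPath (Path.Homotopic.Quotient.mk (σ.trans (c.trans σ.symm)))

end curves

/-- All eigenvalues of `A` are roots of unity. -/
def IsQuasiUnipotent {r : ℕ} (A : SpecialLinearGroup (Fin r) ℂ) : Prop :=
  ∀ z ∈ spectrum ℂ A.1, ∃ n : ℕ, 0 < n ∧ z ^ n = 1

section scheme

variable (ι : Type) (r : ℕ)

/-- The ideal of `SL_r^ι` in the polynomial ring over `ℤ` in the matrix entries. -/
def slIdeal : Ideal (MvPolynomial (ι × Fin r × Fin r) ℤ) :=
  Ideal.span (Set.range fun p : ι => (Matrix.of fun i j => MvPolynomial.X (p, i, j)).det - 1)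

/-- The ring of functions of `SL_r^ι`. -/
def OSL : Type := MvPolynomial (ι × Fin r × Fin r) ℤ ⧸ slIdeal ι r

instance : CommRing (OSL ι r) := Ideal.Quotient.commRing _

/-- The tautological matrices. -/
def taut (p : ι) : SpecialLinearGroup (Fin r) (OSL ι r) :=
  ⟨(Ideal.Quotient.mk (slIdeal ι r)).mapMatrix (Matrix.of fun i j => MvPolynomial.X (p, i, j)),
    ((Ideal.Quotient.mk (slIdeal ι r)).map_det _).symm.trans
      (Ideal.Quotient.eq.2 (Ideal.subset_span ⟨p, rfl⟩))⟩

variable {ι} (R : Set (FreeGroup ι))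

/-- The ideal of the closed subscheme `Rep_r ⊆ SL_r^ι` cut out by the relations `R`. -/
def repIdeal : Ideal (OSL ι r) :=
  Ideal.span {a | ∃ w ∈ R, ∃ i j, a = ((FreeGroup.lift (taut ι r) w).1 - 1) i j}

/-- The ring of functions `𝒪(Rep_r)`. -/
def ORep : Type := OSL ι r ⧸ repIdeal r R

instance : CommRing (ORep r R) := Ideal.Quotient.commRing _

variable {r R}

/-- The matrices of the generators at an `A`-point of `Rep_r`. -/
def gens {A : Type} [CommRing A] (x : ORep r R →+* A) (p : ι) : SpecialLinearGroup (Fin r) A :=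
  SpecialLinearGroup.map (x.comp (Ideal.Quotient.mk (repIdeal r R))) (taut ι r p)

variable (r R)

/-- The ring of invariants `𝒪(Rep_r)^{SL_r}`: the functions with the same values at conjugate
points, over all rings. `M_r` is its spectrum. -/
def OM : Subring (ORep r R) :=
  ⨅ (A : Type) (_ : CommRing A) (x : ORep r R →+* A) (y : ORep r R →+* A)
    (_ : ∃ g, ∀ p, gens y p = g * gens x p * g⁻¹), x.eqLocus y

end scheme

section points

variable (B : Type) [CommRing B]

/-- The complex points of `Spec B`. -/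
def CPt : Type := B →+* ℂ

/-- A complex point as a point of the complex scheme `Spec (ℂ ⊗ B)`. -/
def toSpec (x : CPt B) : PrimeSpectrum (ℂ ⊗[ℤ] B) :=
  ⟨RingHom.ker (Algebra.TensorProduct.productMap (AlgHom.id ℤ ℂ) (RingHom.toIntAlgHom x)),
    RingHom.ker_isPrime _⟩

/-- The Zariski topology. -/
instance : TopologicalSpace (CPt B) := TopologicalSpace.induced (toSpec B) inferInstance

/-- The `𝓞 L`-points of `Spec B` among the complex points. -/
def intPts (L : IntermediateField ℚ ℂ) : Set (CPt B) :=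
  Set.range fun y : B →+* 𝓞 L => (algebraMap (𝓞 L) ℂ).comp y

variable {B}

/-- `S ∩ Y` is dense in `Y` and in each irreducible component of `Y`. -/
def DenseIn (S Y : Set (CPt B)) : Prop :=
  Dense ((↑) ⁻¹' S : Set Y) ∧
    ∀ V ∈ irreducibleComponents Y, V ⊆ closure (V ∩ (↑) ⁻¹' S)

end points

variable {G ι : Type} [Group G] {R : Set (FreeGroup ι)} (θ : PresentedGroup R ≃* G) {r s : ℕ}

/-- The point `x` of `Rep_r` is the representation `ρ`. -/
def IsPointOf {A : Type} [CommRing A] (ρ : G →* SpecialLinearGroup (Fin r) A)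
    (x : ORep r R →+* A) : Prop :=
  ∀ p, gens x p = ρ (θ (PresentedGroup.of p))

/-- The representation on `ℂ^r`. -/
def toRep (ρ : G →* SpecialLinearGroup (Fin r) ℂ) : Representation ℂ G (Fin r → ℂ) :=
  (LinearEquiv.automorphismGroup.toLinearMapMonoidHom.comp SpecialLinearGroup.toLin').comp ρ

/-- The semisimple `ρ` with `ρ (γ j)` in the conjugacy class of `C j`, in `Rep_r(ℂ)`. -/
def repLocus (γ : Fin s → G) (C : Fin s → SpecialLinearGroup (Fin r) ℂ) : Set (CPt (ORep r R)) :=
  {x | ∃ ρ, IsPointOf θ ρ x ∧ (toRep ρ).IsSemisimpleRepresentation ∧ ∀ j, IsConj (C j) (ρ (γ j))}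

/-- `Y ⊆ M_r(ℂ)`: the classes of these representations. -/
def locus (γ : Fin s → G) (C : Fin s → SpecialLinearGroup (Fin r) ℂ) : Set (CPt (OM r R)) :=
  (fun x => RingHom.comp x (OM r R).subtype) '' repLocus θ γ C

end Vale.Agent.P002A

end
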