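import Vale.Agent.P002A30.Rows
import Vale.Agent.P002Z.Merid

/-!
# P002A30: meridians exist and can be moved into small neighbourhoods of the puncture
-/

namespace Vale.Agent.P002A

open Set Filter Topology Metric Vale.Agent.P002Z
open scoped Manifold Real
open Vale.Agent.P299G40 (PN)

theorem localAt_of {M : Type} [TopologicalSpace M] {D : Set M} {x0 y : ↥Dᶜ}
    [PathConnectedSpace ↥Dᶜ] {φ : ℂ → M} (hφ : ∀ u ∈ closedBall (0 : ℂ) 1, ContinuousAt φ u)
    (hD : ∀ u ∈ closedBall (0 : ℂ) 1, φ u ∈ D → u = 0) (σ : Path x0 y) (c : Path y y)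
    (hc : ∀ t, (c t : M) = φ (circleMap 0 1 (2 * π * t))) : LocalAt D x0 (φ 0) (conjLoop σ c) := by
  intro O hO
  let u : ℂ → ℂ := fun w => circleMap 0 (Real.exp (min w.re 0)) w.im
  have hu : Continuous u := by
    simp only [u, circleMap]
    fun_prop
  have hud : ∀ w, dist (u w) 0 = Real.exp (min w.re 0) := fun w =>
    mem_sphere.1 (circleMap_mem_sphere _ (by positivity) _)
  have hub : ∀ w, u w ∈ closedBall (0 : ℂ) 1 := fun w => by
    rw [mem_closedBall, hud]
    exact Real.exp_le_one_iff.2 (min_le_right _ _)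
  have hune : ∀ w, u w ≠ 0 := fun w h => by
    have h1 := hud w
    rw [h, dist_self] at h1
    exact (Real.exp_pos _).ne h1
  let Ψ : C(ℂ, ↥Dᶜ) := ⟨fun w => ⟨φ (u w), fun h => hune w (hD _ (hub w) h)⟩,
    (continuous_iff_continuousAt.2 fun w => (hφ _ (hub w)).comp hu.continuousAt).subtype_mk _⟩
  let T : ℂ := ((2 * π : ℝ) : ℂ) * Complex.I
  have hper : ∀ w, Ψ (w + T) = Ψ w := by
    intro w
    refine Subtype.ext (congrArg φ ?_)
    have h1 : (w + T).re = w.re := by simp [T]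
    have h2 : (w + T).im = w.im + 2 * π := by simp [T]
    simp only [u]
    rw [h1, h2, periodic_circleMap]
  obtain ⟨r, hr, hrO⟩ := Metric.mem_nhds_iff.1 (hφ 0 (mem_closedBall_self zero_le_one) hO)
  obtain ⟨s, hs0, hs⟩ : ∃ s : ℝ, s ≤ 0 ∧ Real.exp s < r :=
    ((eventually_le_atBot 0).and (Real.tendsto_exp_atBot.eventually (gt_mem_nhds hr))).exists
  obtain ⟨κ, hκ, -⟩ := exists_univ x0
  have hnull : Null (univ : Set ℂ) := fun x q _ => SimplyConnectedSpace.paths_homotopic _ _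
  obtain ⟨τ, hτ⟩ := hnull.exists_pot (κ.comap Ψ)
  have hseg : ∀ a a' : ℂ, (κ.comap Ψ).v (Path.segment a a') = (τ a')⁻¹ * τ a := fun a a' =>
    hτ _ _ _ fun _ => mem_univ _
  have hy : y = Ψ 0 := by
    refine Subtype.ext ?_
    rw [← c.source, hc]
    simp [Ψ, u]
  let c' : Path (Ψ s) (Ψ s) :=
    ((Path.segment (s : ℂ) (s + T)).map Ψ.continuous).cast rfl (hper s).symm
  let ρ : Path y (Ψ s) := ((Path.segment (0 : ℂ) s).map Ψ.continuous).cast hy rfl
  refine ⟨Ψ s, σ.trans ρ, c', fun t => hrO ?_, ?_⟩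
  · change u (Path.segment (s : ℂ) (s + T) t) ∈ ball 0 r
    rw [mem_ball, hud]
    have : (Path.segment (s : ℂ) (s + T) t).re = s := by
      simp [Path.segment_apply, AffineMap.lineMap_apply, T]
    rw [this, min_eq_left hs0]
    exact hs
  · have e1 : κ.v c = (τ T)⁻¹ * τ 0 := by
      rw [← hseg]
      refine κ.congr (q := (Path.segment (0 : ℂ) T).map Ψ.continuous) fun t => Subtype.ext ?_
      rw [hc]
      change _ = φ (u (Path.segment (0 : ℂ) T t))
      have h2 : (Path.segment (0 : ℂ) T t).re = 0 := by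
        simp [Path.segment_apply, AffineMap.lineMap_apply, T]
      have h3 : (Path.segment (0 : ℂ) T t).im = 2 * π * t := by
        simp [Path.segment_apply, AffineMap.lineMap_apply, T, mul_comm]
      simp only [u]
      rw [h2, h3, min_self, Real.exp_zero]
    have e2 : κ.v c' = (τ (s + T))⁻¹ * τ s := by
      rw [← hseg]
      exact κ.congr fun _ => rfl
    have e3 : κ.v ρ = (τ s)⁻¹ * τ 0 := by
      rw [← hseg]
      exact κ.congr fun _ => rfl
    have e4 : κ.v ρ = (τ (s + T))⁻¹ * τ T := by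
      rw [← hseg]
      refine κ.congr (q := (Path.segment T (s + T)).map Ψ.continuous) fun t => ?_
      change Ψ (Path.segment (0 : ℂ) s t) = Ψ (Path.segment T (s + T) t)
      rw [← hper]
      congr 1
      simp [Path.segment_apply, AffineMap.lineMap_apply]
    rw [← hκ (conjLoop σ c), ← hκ (conjLoop (σ.trans ρ) c'), κ.toHom_conjLoop, κ.toHom_conjLoop,
      κ.trans, e1, e2]
    have e5 : τ T = τ (s + T) * κ.v ρ := by rw [e4]; group
    have e6 : τ 0 = τ s * κ.v ρ := by rw [e3]; group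
    rw [e5, e6]
    group

variable {N : ℕ} {Z : Set (PN N)}

theorem IsDisc.continuousAt {φ : ℂ → An Z} (h : IsDisc φ) :
    ∀ u ∈ closedBall (0 : ℂ) 1, ContinuousAt φ u := by
  intro u hu
  obtain ⟨s, hs, -, hφ⟩ := h.2 u hu
  letI : TopologicalSpace (PN N) := TopologicalSpace.coinduced
    (fun v : {v : Fin (N + 1) → ℂ // v ≠ 0} => Projectivization.mk ℂ v.1 v.2) inferInstance
  obtain ⟨h0, -⟩ := hφ.self_of_nhds
  classical
  let s' : ℂ → {v : Fin (N + 1) → ℂ // v ≠ 0} := fun v =>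
    if h : s v ≠ 0 then ⟨s v, h⟩ else ⟨s u, h0⟩
  have h1 : ∀ᶠ v in 𝓝 u, (s' v).1 = s v := hφ.mono fun v ⟨h, _⟩ => by simp [s', h]
  have h2 : ContinuousAt s' u :=
    IsInducing.subtypeVal.continuousAt_iff.2 (hs.continuousAt.congr (h1.mono fun _ => Eq.symm))
  have h3 : Continuous fun v : {v : Fin (N + 1) → ℂ // v ≠ 0} => Projectivization.mk ℂ v.1 v.2 :=
    continuous_coinduced_rng
  refine (IsInducing.mk rfl : IsInducing (Subtype.val : An Z → PN N)).continuousAt_iff.2
    ((h3.continuousAt.comp h2).congr (hφ.mono fun v ⟨h, hv⟩ => ?_))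
  refine Eq.trans ?_ hv.symm
  simp [s', h]

theorem IsMeridian.localAt {D : Set (An Z)} {x0 : ↥Dᶜ} [PathConnectedSpace ↥Dᶜ] {p : An Z}
    {γ : FundamentalGroup ↥Dᶜ x0} (h : IsMeridian D x0 p γ) : LocalAt D x0 p γ := by
  obtain ⟨φ, y, σ, c, h1, rfl, h2, h3, rfl⟩ := h
  exact localAt_of h1.continuousAt h2 σ c h3

theorem exists_meridian [T1Space (An Z)] {D : Set (An Z)} (hD : D.Finite) (x0 : ↥Dᶜ)
    [PathConnectedSpace ↥Dᶜ] (p : An Z)
    (h : ∀ O ∈ 𝓝 p, ∃ φ : ℂ → An Z, IsDisc φ ∧ φ 0 = p ∧ MapsTo φ (closedBall 0 1) O) :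
    ∃ γ, IsMeridian D x0 p γ := by
  obtain ⟨φ, hφ, hp, hO⟩ := h _ (eventually_nhdsWithin_iff.1 (eventually_notMem_of_finite hD p))
  have hD' : ∀ u ∈ closedBall (0 : ℂ) 1, φ u ∈ D → u = 0 := fun u hu huD => by
    by_contra hne
    exact hO hu (fun h => hne (hφ.1 hu (mem_closedBall_self zero_le_one) (Eq.trans h hp.symm))) huD
  have hm : ∀ θ, circleMap 0 1 θ ∈ closedBall (0 : ℂ) 1 := fun θ =>
    circleMap_mem_closedBall _ zero_le_one θ
  let g : ℝ → ↥Dᶜ := fun θ => ⟨φ (circleMap 0 1 θ), fun h =>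
    circleMap_ne_center one_ne_zero (hD' _ (hm θ) h)⟩
  have hg : Continuous g := (continuous_iff_continuousAt.2 fun θ =>
    (hφ.continuousAt _ (hm θ)).comp (continuous_circleMap _ _).continuousAt).subtype_mk _
  let c : Path (g 0) (g 0) :=
    { toFun := fun t => g (2 * π * t)
      continuous_toFun := hg.comp (by fun_prop)
      source' := by simp
      target' := by
        refine Subtype.ext (congrArg φ ?_)
        have := periodic_circleMap (0 : ℂ) 1 0
        simpa using this }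
  exact ⟨_, φ, g 0, PathConnectedSpace.somePath _ _, c, hφ, hp, hD', fun _ => rfl, rfl⟩

end Vale.Agent.P002A
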