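import Vale.Agent.P002A30.Alg
import Vale.Agent.P002A30.Mer
import Vale.Agent.P002Z.Fin

/-!
# P002A30: the final statement from the rows
-/

open Set Matrix
open Vale.Agent.P299G40 (PN IsSmoothVariety)

namespace Vale.Agent.P002A

theorem final_of (geo : GEO) (ss : SS) {N : ℕ} (Z : Set (PN N)) (hZ : IsSmoothVariety 1 Z)
    (D : Set (An Z)) (hD : D.Finite) (x₀ : ↥Dᶜ) :
    PathConnectedSpace ↥Dᶜ ∧ Group.IsFinitelyPresented (FundamentalGroup ↥Dᶜ x₀) ∧
    (∀ p ∈ D, ∃ γ, IsMeridian D x₀ p γ) ∧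
    ∀ (ι : Type) [Finite ι] (R : Set (FreeGroup ι))
      (θ : PresentedGroup R ≃* FundamentalGroup ↥Dᶜ x₀) (r : ℕ),
      (∀ (A : Type) [CommRing A],
        (∀ ρ, ∃! x : ORep r R →+* A, IsPointOf θ ρ x) ∧
        ∀ x : ORep r R →+* A, ∃! ρ, IsPointOf θ ρ x) ∧
      (∃ L : IntermediateField ℚ ℂ, FiniteDimensional ℚ L ∧ DenseIn (intPts (OM r R) L) univ) ∧
      ∀ (s : ℕ) (γ : Fin s → FundamentalGroup ↥Dᶜ x₀) (C : Fin s → SpecialLinearGroup (Fin r) ℂ),
        (∀ j, ∃ p ∈ D, IsMeridian D x₀ p (γ j)) → (∀ j, IsQuasiUnipotent (C j)) →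
        ∃ L : IntermediateField ℚ ℂ, FiniteDimensional ℚ L ∧
          DenseIn (intPts (OM r R) L) (locus θ γ C) ∧
          DenseIn (intPts (ORep r R) L) (repLocus θ γ C) := by
  obtain ⟨_, _, _, _, _, hdisc⟩ := geo N Z hZ
  have : PathConnectedSpace ↥Dᶜ :=
    isPathConnected_iff_pathConnectedSpace.1 (P002Z.isPathConnected_compl_finite hD)
  obtain ⟨g, n, m, δ, hδ, hper⟩ := P002Z.curve_isOrb hD x₀
  refine ⟨this, P002Z.isFinitelyPresented_of_isOrb hδ,
    fun p _ => exists_meridian hD x₀ p (hdisc p), fun ι _ R θ r => ?_⟩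
  have key : ∀ (s : ℕ) (γ : Fin s → FundamentalGroup ↥Dᶜ x₀)
      (C : Fin s → SpecialLinearGroup (Fin r) ℂ), (∀ j, ∃ p ∈ D, IsMeridian D x₀ p (γ j)) →
      (∀ j, IsQuasiUnipotent (C j)) → ∃ L : IntermediateField ℚ ℂ, FiniteDimensional ℚ L ∧
        repLocus θ γ C ⊆ closure (intPts _ L ∩ repLocus θ γ C) := by
    intro s γ C hγ hC
    choose w hw using fun j => (θ.surjective.comp (PresentedGroup.mk_surjective R)) (γ j)
    obtain rfl : γ = fun j => θ (PresentedGroup.mk R (w j)) := funext fun j => (hw j).symm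
    obtain ⟨L, hL, h⟩ := P002Z.dense_of_isOrb hδ R θ r s w C (fun j => by
      obtain ⟨p, hp, h⟩ := hγ j
      exact hper p hp _ h.localAt) fun j z hz => hC j z (mem_spectrum_iff_isRoot_charpoly.2 hz)
    exact ⟨L, hL, rep_dense θ w C h⟩
  refine ⟨fun A _ => represents θ, ?_, fun s γ C hγ hC => ?_⟩
  · obtain ⟨L, hL, h⟩ := key 0 Fin.elim0 Fin.elim0 (fun j => j.elim0) fun j => j.elim0
    exact ⟨L, hL, denseIn_image _ h (mapsTo_univ _ _) (univ_subset θ ss)⟩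
  · obtain ⟨L, hL, h⟩ := key s γ C hγ hC
    exact ⟨L, hL, denseIn_image (OM r R).subtype h (mapsTo_image _ _) subset_closure,
      denseIn_image (RingHom.id _) h (fun _ hx => hx) fun x hx => subset_closure ⟨x, hx, rfl⟩⟩

end Vale.Agent.P002A
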