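import Vale.Agent.P002A30.Defs

/-!
# P002A30: the Zariski topology on complex points
-/

open Set Topology TensorProduct TopologicalSpace NumberField

noncomputable section

namespace Vale.Agent.P002A

theorem finite_comp {X Y : Type} [TopologicalSpace X] [TopologicalSpace Y] [NoetherianSpace X]
    {f : X → Y} (hf : Continuous f) (hd : DenseRange f) : (irreducibleComponents Y).Finite := by
  classical
  have hfin := NoetherianSpace.finite_irreducibleComponents (α := X)
  refine (hfin.image fun V => closure (f '' V)).subset fun V hV => ?_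
  have hcl : ∀ z ∈ (hfin.image fun V => closure (f '' V)).toFinset, IsClosed z := by
    intro z hz
    obtain ⟨W, -, rfl⟩ := (Set.Finite.mem_toFinset _).1 hz
    exact isClosed_closure
  have hU : IsClosed (⋃₀ ((hfin.image fun V => closure (f '' V)).toFinset : Set (Set Y))) := by
    rw [sUnion_eq_biUnion]
    exact (Finset.finite_toSet _).isClosed_biUnion hcl
  have hcov : V ⊆ ⋃₀ ((hfin.image fun V => closure (f '' V)).toFinset : Set (Set Y)) := by
    refine (subset_univ _).trans ?_
    rw [← hd.closure_range]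
    refine closure_minimal ?_ hU
    rintro _ ⟨x, rfl⟩
    exact ⟨_, (Set.Finite.mem_toFinset _).2 ⟨_, irreducibleComponent_mem_irreducibleComponents x,
      rfl⟩, subset_closure ⟨x, mem_irreducibleComponent, rfl⟩⟩
  obtain ⟨z, hz, hVz⟩ := isIrreducible_iff_sUnion_isClosed.1 hV.1 _ hcl hcov
  obtain ⟨W, hW, rfl⟩ := (Set.Finite.mem_toFinset _).1 hz
  exact ⟨W, hW, (hV.eq_of_le (hW.1.image f hf.continuousOn).closure hVz).symm⟩

theorem dense_comp {Y : Type} [TopologicalSpace Y] (hfin : (irreducibleComponents Y).Finite)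
    {S : Set Y} (hS : Dense S) : ∀ V ∈ irreducibleComponents Y, V ⊆ closure (V ∩ S) := by
  classical
  intro V hV
  have hf' : (irreducibleComponents Y \ {V}).Finite := hfin.subset sdiff_subset
  have hcl : ∀ z ∈ hf'.toFinset, IsClosed z := fun z hz =>
    isClosed_of_mem_irreducibleComponents z ((Set.Finite.mem_toFinset _).1 hz).1
  have hU : IsClosed (⋃₀ (hf'.toFinset : Set (Set Y))) := by
    rw [sUnion_eq_biUnion]
    exact (Finset.finite_toSet _).isClosed_biUnion hcl
  have hne : (V ∩ (⋃₀ (hf'.toFinset : Set (Set Y)))ᶜ).Nonempty := by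
    by_contra h
    obtain ⟨z, hz, hVz⟩ := isIrreducible_iff_sUnion_isClosed.1 hV.1 _ hcl fun x hx => by
      by_contra hx'
      exact h ⟨x, hx, hx'⟩
    obtain ⟨h1, h2⟩ := (Set.Finite.mem_toFinset _).1 hz
    exact h2 (hV.eq_of_le h1.1 hVz).symm
  have hsub : (⋃₀ (hf'.toFinset : Set (Set Y)))ᶜ ⊆ V := by
    intro x hx
    by_contra hxV
    refine hx ⟨irreducibleComponent x, (Set.Finite.mem_toFinset _).2
      ⟨irreducibleComponent_mem_irreducibleComponents x, fun h => hxV ?_⟩, mem_irreducibleComponent⟩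
    rw [← mem_singleton_iff.1 h]
    exact mem_irreducibleComponent
  refine (subset_closure_inter_of_isPreirreducible_of_isOpen hV.1.2 hU.isOpen_compl hne).trans
    (closure_minimal ?_ isClosed_closure)
  exact inter_subset_right.trans ((hS.open_subset_closure_inter hU.isOpen_compl).trans
    (closure_mono (inter_subset_inter_left _ hsub)))

variable {B B' : Type} [CommRing B] [CommRing B']

/-- evaluation at a complex point -/
def ev (x : CPt B) : ℂ ⊗[ℤ] B →ₐ[ℤ] ℂ :=
  Algebra.TensorProduct.productMap (AlgHom.id ℤ ℂ) (RingHom.toIntAlgHom x)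

theorem ev_tmul (x : B →+* ℂ) (a : ℂ) (b : B) : ev (B := B) x (a ⊗ₜ b) = a * x b := rfl

theorem mem_closure_cpt {x : CPt B} {S : Set (CPt B)} :
    x ∈ closure S ↔ ∀ f, (∀ y ∈ S, ev y f = 0) → ev x f = 0 := by
  refine closure_induced.trans ?_
  rw [← PrimeSpectrum.zeroLocus_vanishingIdeal_eq_closure, PrimeSpectrum.mem_zeroLocus]
  refine forall_congr' fun f => imp_congr ?_ Iff.rfl
  rw [SetLike.mem_coe, PrimeSpectrum.mem_vanishingIdeal, forall_mem_image]
  rfl

theorem mem_closure_ind {x : CPt B} {S : Set (CPt B)} (P : ((B →+* ℂ) → ℂ) → Prop)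
    (h0 : P fun _ => 0) (h1 : ∀ a b, P fun y => a * y b)
    (h2 : ∀ u v, P u → P v → P fun y => u y + v y)
    (h : ∀ u, P u → (∀ y ∈ S, u y = 0) → u x = 0) : x ∈ closure S := by
  refine mem_closure_cpt.2 fun f => h (fun y => ev (B := B) y f) ?_
  induction f using TensorProduct.induction_on with
  | zero => simpa only [map_zero] using h0
  | tmul a b => exact h1 a b
  | add a b ha hb => simpa only [map_add] using h2 _ _ ha hb

/-- base change of a ring homomorphism -/
def bc (ψ : B →+* B') : ℂ ⊗[ℤ] B →ₐ[ℂ] ℂ ⊗[ℤ] B' :=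
  Algebra.TensorProduct.map (AlgHom.id ℂ ℂ) ψ.toIntAlgHom

/-- the map on points -/
def res (ψ : B →+* B') (x : CPt B') : CPt B := RingHom.comp x ψ

theorem ev_res (ψ : B →+* B') (x : CPt B') (f : ℂ ⊗[ℤ] B) : ev (res ψ x) f = ev x (bc ψ f) := by
  induction f using TensorProduct.induction_on with
  | zero => simp
  | tmul a b => rfl
  | add a b ha hb => simp only [map_add, ha, hb]

theorem continuous_res (ψ : B →+* B') : Continuous (res ψ) := by
  refine continuous_iff_isClosed.2 fun S hS => isClosed_of_closure_subset fun x hx => ?_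
  rw [mem_preimage, ← hS.closure_eq]
  refine mem_closure_cpt.2 fun f hf => ?_
  rw [ev_res]
  exact mem_closure_cpt.1 hx _ fun y hy => (ev_res ψ y f).symm.trans (hf _ hy)

theorem res_int (ψ : B →+* B') (L : IntermediateField ℚ ℂ) :
    MapsTo (res ψ) (intPts B' L) (intPts B L) := by
  rintro _ ⟨y, rfl⟩
  exact ⟨y.comp ψ, rfl⟩

instance [Algebra.FiniteType ℤ B] : NoetherianSpace (CPt B) :=
  haveI := Algebra.FiniteType.isNoetherianRing ℂ (ℂ ⊗[ℤ] B)
  (IsInducing.mk rfl : IsInducing (toSpec B)).noetherianSpace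

theorem nilp {T : Type} [CommRing T] [Algebra ℂ T] [Algebra.FiniteType ℂ T] (f : T)
    (h : ∀ φ : T →ₐ[ℂ] ℂ, φ f = 0) : IsNilpotent f := by
  have : IsJacobsonRing T := isJacobsonRing_of_finiteType (A := ℂ)
  rw [← mem_nilradical, nilradical, Ideal.radical_eq_jacobson, Ideal.jacobson, Submodule.mem_sInf]
  rintro m ⟨-, hm⟩
  letI := Ideal.Quotient.field m
  have := finite_of_finite_type_of_isJacobsonRing ℂ (T ⧸ m)
  let e := AlgEquiv.ofBijective (Algebra.ofId ℂ (T ⧸ m))
    IsAlgClosed.algebraMap_bijective_of_isIntegral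
  have h1 := h (e.symm.toAlgHom.comp (Ideal.Quotient.mkₐ ℂ m))
  exact Ideal.Quotient.eq_zero_iff_mem.1 ((map_eq_zero_iff _ e.symm.injective).1 h1)

theorem denseRange_res [Algebra.FiniteType ℤ B'] {ψ : B →+* B'} (hψ : Function.Injective ψ) :
    DenseRange (res ψ) := by
  intro x
  refine mem_closure_cpt.2 fun f hf => ?_
  have h1 : IsNilpotent (bc ψ f) := nilp _ fun φ => by
    let y : B' →+* ℂ := (φ : ℂ ⊗[ℤ] B' →+* ℂ).comp
      (Algebra.TensorProduct.includeRight : B' →ₐ[ℤ] ℂ ⊗[ℤ] B')
    have h2 : ∀ g, φ g = ev (B := B') y g := fun g => by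
      induction g using TensorProduct.induction_on with
      | zero => simp
      | tmul a b =>
        have : a ⊗ₜ[ℤ] b = a • ((1 : ℂ) ⊗ₜ[ℤ] b) := by
          rw [TensorProduct.smul_tmul', smul_eq_mul, mul_one]
        rw [ev_tmul, this, map_smul]
        rfl
      | add a b ha hb => simp only [map_add, ha, hb]
    exact (h2 _).trans ((ev_res ψ y f).symm.trans (hf _ ⟨y, rfl⟩))
  have h3 : Function.Injective (bc ψ) :=
    Module.Flat.lTensor_preserves_injective_linearMap (M := ℂ) ψ.toIntAlgHom.toLinearMap hψ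
  obtain ⟨n, hn⟩ := h1
  rw [← map_pow, map_eq_zero_iff _ h3] at hn
  exact (IsNilpotent.map ⟨n, hn⟩ (ev x)).eq_zero

/-- density passes to images -/
theorem denseIn_image [Algebra.FiniteType ℤ B'] (ψ : B →+* B') {L : IntermediateField ℚ ℂ}
    {T : Set (CPt B')} {Y : Set (CPt B)} (hT : T ⊆ closure (intPts B' L ∩ T))
    (h1 : MapsTo (res ψ) T Y) (h2 : Y ⊆ closure (res ψ '' T)) : DenseIn (intPts B L) Y := by
  have hd : Dense ((↑) ⁻¹' intPts B L : Set Y) := by
    rw [Subtype.dense_iff, Subtype.image_preimage_coe]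
    refine h2.trans (closure_minimal ?_ isClosed_closure)
    refine (image_mono hT).trans ((image_closure_subset_closure_image (continuous_res ψ)).trans
      (closure_mono ?_))
    rintro _ ⟨x, ⟨hx, hxT⟩, rfl⟩
    exact ⟨h1 hxT, res_int ψ L hx⟩
  refine ⟨hd, dense_comp (finite_comp (f := h1.restrict) ((continuous_res ψ).restrict h1) ?_) hd⟩
  rw [DenseRange, Subtype.dense_iff]
  refine h2.trans (closure_mono ?_)
  rintro _ ⟨x, hx, rfl⟩
  exact ⟨_, ⟨⟨x, hx⟩, rfl⟩, rfl⟩

end Vale.Agent.P002A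

end
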